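import Vale.Agent.P249.Final

/-!
P249: near-linear upper bound for dimension reduction in `L_p`.
-/

namespace Vale.Agent.Results.P249.NearLinear

open Vale.Agent.P249

/-- For every `1 < p < ∞` (in particular every `p > 2`) and every `D > 1` there is a constant `C`
with `d_p(n, D) ≤ C n (log n)^p` for all `n ≥ 2`, and the least dimension `d_p(n, D)` is attained. -/
theorem result.{u} (p : ℝ) (hp : 1 < p) (D : ℝ) (hD : 1 < D) :
    ∃ C : ℝ, 0 < C ∧ ∀ n : ℕ, 2 ≤ n →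
      EmbedsAll.{u} p D n (dp.{u} p D n) ∧
        (dp.{u} p D n : ℝ) ≤ C * n * Real.log n ^ p := by
  obtain ⟨C, hC, h⟩ := exists_embedsAll.{u} hp.le hD
  refine ⟨C, hC, fun n hn => ?_⟩
  obtain ⟨N, hN, hle⟩ := h n hn
  refine ⟨Nat.sInf_mem (s := {d : ℕ | EmbedsAll.{u} p D n d}) ⟨N, hN⟩, ?_⟩
  have h1 : dp.{u} p D n ≤ N := Nat.sInf_le hN
  exact (by exact_mod_cast h1 : (dp.{u} p D n : ℝ) ≤ N).trans hle

end Vale.Agent.Results.P249.NearLinear
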